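import Vale.Agent.P040.Sph80.Ref

/-!
# Perturbation of the red vectors into general position

A small perturbation makes any three red vectors linearly independent and keeps the signs of finitely
many nonzero determinants.
-/

namespace Vale.Agent.P040.Sph80

open Finset Filter Topology Vale.Agent.P040.Sph56

/-- the perturbed vector `a + t u` -/
def pt (a u : V3) (t : ℝ) : V3 := (a.1 + t * u.1, a.2.1 + t * u.2.1, a.2.2 + t * u.2.2)

lemma det3_pt3 (a b c u v w : V3) (t : ℝ) :
    det3 (pt a u t) (pt b v t) (pt c w t) =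
      det3 a b c + (det3 u b c + det3 a v c + det3 a b w) * t
        + (det3 u v c + det3 u b w + det3 a v w) * t ^ 2 + det3 u v w * t ^ 3 := by
  unfold det3 pt
  simp only
  ring

lemma det3_mom (a b c : ℝ) : det3 (mom a) (mom b) (mom c) = (b - a) * (c - a) * (c - b) := by
  unfold det3 mom
  simp only
  ring

lemma finite_cubic (c0 c1 c2 c3 : ℝ) (h : c3 ≠ 0) :
    {t : ℝ | c0 + c1 * t + c2 * t ^ 2 + c3 * t ^ 3 = 0}.Finite := by
  classical
  set P : Polynomial ℝ :=
    Polynomial.C c0 + Polynomial.C c1 * Polynomial.X + Polynomial.C c2 * Polynomial.X ^ 2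
      + Polynomial.C c3 * Polynomial.X ^ 3 with hP
  have hP0 : P ≠ 0 := by
    intro h0
    apply h
    have c : P.coeff 3 = c3 := by
      simp [hP, Polynomial.coeff_X, Polynomial.coeff_C]
    rw [h0] at c
    simpa using c.symm
  apply Set.Finite.subset (P.roots.toFinset.finite_toSet)
  intro t ht
  simp only [Set.mem_ofPred_eq] at ht
  simp only [Finset.mem_coe, Multiset.mem_toFinset]
  rw [Polynomial.mem_roots hP0]
  simp only [Polynomial.IsRoot.def, hP, Polynomial.eval_add, Polynomial.eval_C, Polynomial.eval_mul,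
    Polynomial.eval_X, Polynomial.eval_pow]
  exact ht

lemma eventually_notMem_of_finite (S : Set ℝ) (hS : S.Finite) : ∀ᶠ t in 𝓝[≠] (0 : ℝ), t ∉ S := by
  have h1 : (S \ {0}).Finite := hS.subset Set.diff_subset
  have h2 : IsOpen (S \ {0})ᶜ := h1.isClosed.isOpen_compl
  have h3 : (0 : ℝ) ∈ (S \ {0})ᶜ := by simp
  have h4 : ∀ᶠ t in 𝓝 (0 : ℝ), t ∈ (S \ {0})ᶜ := h2.mem_nhds h3
  have h5 : ∀ᶠ t in 𝓝[≠] (0 : ℝ), t ∈ (S \ {0})ᶜ := h4.filter_mono nhdsWithin_le_nhds
  have h6 : ∀ᶠ t in 𝓝[≠] (0 : ℝ), t ≠ 0 := eventually_mem_nhdsWithin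
  filter_upwards [h5, h6] with t ht ht0 hmem
  exact ht ⟨hmem, ht0⟩

lemma eventually_sign (g : ℝ → ℝ) (hg : Continuous g) (h0 : g 0 ≠ 0) :
    ∀ᶠ t in 𝓝[≠] (0 : ℝ), 0 < g t * g 0 := by
  have h1 : Continuous fun t => g t * g 0 := hg.mul continuous_const
  have h2 : 0 < g 0 * g 0 := mul_self_pos.mpr h0
  have h3 : ∀ᶠ t in 𝓝 (0 : ℝ), 0 < g t * g 0 := h1.continuousAt.eventually (lt_mem_nhds h2)
  exact h3.filter_mono nhdsWithin_le_nhds

lemma continuous_det3_pt2 (a b u v c : V3) : Continuous fun t => det3 (pt a u t) (pt b v t) c := by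
  unfold det3 pt
  simp only
  fun_prop

lemma continuous_det3_pt1 (a u b c : V3) : Continuous fun t => det3 (pt a u t) b c := by
  unfold det3 pt
  simp only
  fun_prop

lemma pt_zero (a u : V3) : pt a u 0 = a := by
  unfold pt
  simp

/-- **Perturbation lemma.** -/
theorem exists_perturb {N n : ℕ} (v : Fin N → V3) (B : Fin n → V3) :
    ∃ v' : Fin N → V3,
      (∀ i i' i'', i ≠ i' → i ≠ i'' → i' ≠ i'' → det3 (v' i) (v' i') (v' i'') ≠ 0) ∧
      (∀ i i' j, det3 (v i) (v i') (B j) ≠ 0 →
        0 < det3 (v' i) (v' i') (B j) * det3 (v i) (v i') (B j)) ∧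
      (∀ i j j', det3 (v i) (B j) (B j') ≠ 0 →
        0 < det3 (v' i) (B j) (B j') * det3 (v i) (B j) (B j')) := by
  classical
  set w : ℝ → Fin N → V3 := fun t i => pt (v i) (mom (i.val : ℝ)) t with hw
  have hcast : ∀ i i' : Fin N, i ≠ i' → ((i'.val : ℝ) - (i.val : ℝ)) ≠ 0 := by
    intro i i' h h0
    apply h
    apply Fin.ext
    have : (i'.val : ℝ) = (i.val : ℝ) := by linarith
    exact (Nat.cast_injective this).symm
  have A : ∀ᶠ t in 𝓝[≠] (0 : ℝ), ∀ i i' i'' : Fin N, i ≠ i' → i ≠ i'' → i' ≠ i'' →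
      det3 (w t i) (w t i') (w t i'') ≠ 0 := by
    rw [eventually_all]; intro i
    rw [eventually_all]; intro i'
    rw [eventually_all]; intro i''
    by_cases h1 : i ≠ i'
    · by_cases h2 : i ≠ i''
      · by_cases h3 : i' ≠ i''
        · have hlead : det3 (mom (i.val : ℝ)) (mom (i'.val : ℝ)) (mom (i''.val : ℝ)) ≠ 0 := by
            rw [det3_mom]
            exact mul_ne_zero (mul_ne_zero (hcast i i' h1) (hcast i i'' h2)) (hcast i' i'' h3)
          have hfin := finite_cubic (det3 (v i) (v i') (v i''))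
            (det3 (mom (i.val : ℝ)) (v i') (v i'') + det3 (v i) (mom (i'.val : ℝ)) (v i'')
              + det3 (v i) (v i') (mom (i''.val : ℝ)))
            (det3 (mom (i.val : ℝ)) (mom (i'.val : ℝ)) (v i'')
              + det3 (mom (i.val : ℝ)) (v i') (mom (i''.val : ℝ))
              + det3 (v i) (mom (i'.val : ℝ)) (mom (i''.val : ℝ))) _ hlead
          filter_upwards [eventually_notMem_of_finite _ hfin] with t ht _ _ _ h0
          apply ht
          show _ = (0 : ℝ)
          rw [← h0, hw, det3_pt3]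
        · exact Eventually.of_forall fun t _ _ h => absurd h h3
      · exact Eventually.of_forall fun t _ h _ => absurd h h2
    · exact Eventually.of_forall fun t h _ _ => absurd h h1
  have Bq : ∀ᶠ t in 𝓝[≠] (0 : ℝ), ∀ (i i' : Fin N) (j : Fin n), det3 (v i) (v i') (B j) ≠ 0 →
      0 < det3 (w t i) (w t i') (B j) * det3 (v i) (v i') (B j) := by
    rw [eventually_all]; intro i
    rw [eventually_all]; intro i'
    rw [eventually_all]; intro j
    by_cases h : det3 (v i) (v i') (B j) ≠ 0
    · have := eventually_sign (fun t => det3 (w t i) (w t i') (B j))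
        (continuous_det3_pt2 _ _ _ _ _) (by simp only [hw, pt_zero]; exact h)
      filter_upwards [this] with t ht _
      simpa only [hw, pt_zero] using ht
    · exact Eventually.of_forall fun t h' => absurd h' h
  have Cq : ∀ᶠ t in 𝓝[≠] (0 : ℝ), ∀ (i : Fin N) (j j' : Fin n), det3 (v i) (B j) (B j') ≠ 0 →
      0 < det3 (w t i) (B j) (B j') * det3 (v i) (B j) (B j') := by
    rw [eventually_all]; intro i
    rw [eventually_all]; intro j
    rw [eventually_all]; intro j'
    by_cases h : det3 (v i) (B j) (B j') ≠ 0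
    · have := eventually_sign (fun t => det3 (w t i) (B j) (B j'))
        (continuous_det3_pt1 _ _ _ _) (by simp only [hw, pt_zero]; exact h)
      filter_upwards [this] with t ht _
      simpa only [hw, pt_zero] using ht
    · exact Eventually.of_forall fun t h' => absurd h' h
  obtain ⟨t, h1, h2, h3⟩ := (A.and (Bq.and Cq)).exists
  exact ⟨w t, h1, h2, h3⟩

end Vale.Agent.P040.Sph80
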