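import Vale.Agent.P040.Sph80.GCount
import Vale.Agent.P040.Sph80.Perturb
import Vale.Agent.P040.Sph40.Main

/-!
# Spherical geodesic drawings, general position for bichromatic triples only: reduction of the
Zarankiewicz bound to the pair inequality and to the labelling lemma

The red vertices are perturbed so that any three of them are linearly independent; the signs of all
determinants of bichromatic triples are kept, hence so is the set of good pairs.
-/

namespace Vale.Agent.P040.Sph80

open Finset Vale.Agent.P040.All Vale.Agent.P040.Sph40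

/-- interface: the labelling lemma -/
def LabAll (k : ℕ) : Prop :=
  ∀ v : Fin (2 * k + 1) → V3,
    (∀ i i' i'', i ≠ i' → i ≠ i'' → i' ≠ i'' → Sph56.det3 (v i) (v i') (v i'') ≠ 0) → HasLab k v

variable {n : ℕ}

lemma sign_transfer (a b a' b' : ℝ) (h : 0 < a' * b') (ha : 0 < a' * a) (hb : 0 < b' * b) :
    0 < a * b := by
  rcases mul_pos_iff.mp h with ⟨p1, p2⟩ | ⟨p1, p2⟩
  · have h1 : 0 < a := by
      rcases mul_pos_iff.mp ha with ⟨_, q⟩ | ⟨q, _⟩
      · exact q
      · linarith
    have h2 : 0 < b := by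
      rcases mul_pos_iff.mp hb with ⟨_, q⟩ | ⟨q, _⟩
      · exact q
      · linarith
    exact mul_pos h1 h2
  · have h1 : a < 0 := by
      rcases mul_pos_iff.mp ha with ⟨q, _⟩ | ⟨_, q⟩
      · linarith
      · exact q
    have h2 : b < 0 := by
      rcases mul_pos_iff.mp hb with ⟨q, _⟩ | ⟨_, q⟩
      · linarith
      · exact q
    exact mul_pos_of_neg_of_neg h1 h2

lemma geo_good4Count_le_pc (k : ℕ) (D : GeoDrawing (2 * k + 1) n)
    (σ : Fin (2 * k + 1) ≃ Fin (2 * k + 1)) (j j' : Fin n) :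
    good4Count k (lab D.red σ) (D.blue j) (D.blue j') ≤ D.pc j j' := by
  classical
  unfold good4Count GeoDrawing.pc
  set s : ℕ → Fin (2 * k + 1) := fun x => σ (Fin.ofNat (2 * k + 1) x) with hs
  have hlab : ∀ x < 2 * k + 1, lab D.red σ x = D.red (s x) := by
    intro x hx
    unfold lab
    rw [dif_pos hx]
    congr 2
    apply Fin.ext
    simp only [Fin.val_ofNat]
    rw [Nat.mod_eq_of_lt hx]
  have hsinj : ∀ x < 2 * k + 1, ∀ y < 2 * k + 1, s x = s y → x = y := by
    intro x hx y hy h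
    have h1 : Fin.ofNat (2 * k + 1) x = Fin.ofNat (2 * k + 1) y := σ.injective h
    have h2 := congrArg Fin.val h1
    simp only [Fin.val_ofNat] at h2
    rwa [Nat.mod_eq_of_lt hx, Nat.mod_eq_of_lt hy] at h2
  apply card_le_card_of_injOn
    (fun q => if D.Cross (s q.1, j) (s q.2, j') then (s q.1, s q.2) else (s q.2, s q.1))
  · intro q hq
    simp only [coe_filter, mem_product, mem_range, Set.mem_ofPred_eq] at hq
    obtain ⟨⟨hq1, hq2⟩, hlt, hgood⟩ := hq
    rw [hlab _ hq1, hlab _ hq2] at hgood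
    have hne : s q.1 ≠ s q.2 := fun h => (ne_of_lt hlt) (hsinj _ hq1 _ hq2 h)
    have hcr := cross_of_good4 _ _ _ _ (show Good4 _ _ _ _ from hgood)
    simp only [coe_filter, mem_univ, true_and, Set.mem_ofPred_eq]
    by_cases hc : D.Cross (s q.1, j) (s q.2, j')
    · rw [if_pos hc]
      exact ⟨hne, hc⟩
    · rw [if_neg hc]
      refine ⟨hne.symm, ?_⟩
      rcases hcr with h | h
      · exfalso
        apply hc
        unfold GeoDrawing.Cross
        rw [arc_symm (D.red _) (D.blue j), arc_symm (D.red _) (D.blue j')]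
        exact h
      · unfold GeoDrawing.Cross
        rw [arc_symm (D.red _) (D.blue j), arc_symm (D.red _) (D.blue j')]
        exact h
  · intro q hq q' hq' h
    simp only [coe_filter, mem_product, mem_range, Set.mem_ofPred_eq] at hq hq'
    obtain ⟨⟨hq1, hq2⟩, hlt, -⟩ := hq
    obtain ⟨⟨hq1', hq2'⟩, hlt', -⟩ := hq'
    simp only at h
    split_ifs at h with h1 h2 h2
    · simp only [Prod.mk.injEq] at h
      exact Prod.ext (hsinj _ hq1 _ hq1' h.1) (hsinj _ hq2 _ hq2' h.2)
    · simp only [Prod.mk.injEq] at h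
      have e1 := hsinj _ hq1 _ hq2' h.1
      have e2 := hsinj _ hq2 _ hq1' h.2
      omega
    · simp only [Prod.mk.injEq] at h
      have e1 := hsinj _ hq2 _ hq1' h.1
      have e2 := hsinj _ hq1 _ hq2' h.2
      omega
    · simp only [Prod.mk.injEq] at h
      exact Prod.ext (hsinj _ hq1 _ hq1' h.2) (hsinj _ hq2 _ hq2' h.1)

/-- The pair inequality and the labelling lemma give the Zarankiewicz bound for all spherical geodesic
drawings of `K_{2k+1,n}`. -/
theorem geo_odd_of (k : ℕ) (hP : PairIneqS k) (hLA : LabAll k) (n : ℕ)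
    (D : GeoDrawing (2 * k + 1) n) :
    k * k * ((n / 2) * ((n - 1) / 2)) ≤ D.crossings := by
  classical
  by_cases hk : k = 0
  · subst hk; simp
  obtain ⟨v', g1, g2, g3⟩ := exists_perturb D.red D.blue
  obtain ⟨σ, nn, hLab⟩ := hLA v' g1
  have hcyc : ∀ a b c : V3, Sph56.det3 a b c = Sph56.det3 b c a :=
    fun a b c => by unfold Sph56.det3; ring
  have hswap : ∀ a b c : V3, Sph56.det3 a b c = - Sph56.det3 b a c :=
    fun a b c => by unfold Sph56.det3; ring
  have q2 : ∀ i i' j, i ≠ i' →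
      0 < Sph56.det3 (v' i) (v' i') (D.blue j) * Sph56.det3 (D.red i) (D.red i') (D.blue j) :=
    fun i i' j h => g2 i i' j (D.gen_rrb i i' j h)
  have q3 : ∀ i j j', j ≠ j' →
      0 < Sph56.det3 (v' i) (D.blue j) (D.blue j') * Sph56.det3 (D.red i) (D.blue j) (D.blue j') :=
    fun i j j' h => g3 i j j' (D.gen_rbb i j j' h)
  have n2 : ∀ i i' j, i ≠ i' → Sph56.det3 (v' i) (v' i') (D.blue j) ≠ 0 :=
    fun i i' j h h0 => by have := q2 i i' j h; rw [h0] at this; simp at this
  have n3 : ∀ i j j', j ≠ j' → Sph56.det3 (v' i) (D.blue j) (D.blue j') ≠ 0 :=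
    fun i j j' h h0 => by have := q3 i j j' h; rw [h0] at this; simp at this
  -- the reference vector
  obtain ⟨e, he⟩ := Sph40.exists_ref
    (ι := (Fin n × Fin (2 * k + 1)) ⊕ {p : Fin n × Fin n // p.1 ≠ p.2})
    (fun a => Sum.elim (fun q => D.blue q.1) (fun p => D.blue p.1.1) a)
    (fun a => Sum.elim (fun q => v' q.2) (fun p => D.blue p.1.2) a) (by
      rintro (⟨j, i⟩ | ⟨⟨j, j'⟩, hjj⟩)
      · obtain ⟨i', hi'⟩ : ∃ i' : Fin (2 * k + 1), i' ≠ i := by
          by_cases h0 : i.val = 0
          · exact ⟨⟨1, by omega⟩, fun h1 => by rw [← h1] at h0; simp at h0⟩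
          · exact ⟨⟨0, by omega⟩, fun h1 => by rw [← h1] at h0; simp at h0⟩
        refine ⟨v' i', ?_⟩
        simp only [Sum.elim_inl]
        have := n2 i' i j hi'
        rw [hcyc, hcyc] at this
        exact this
      · refine ⟨v' ⟨0, by omega⟩, ?_⟩
        simp only [Sum.elim_inr]
        have := n3 ⟨0, by omega⟩ j j' hjj
        rw [hswap] at this
        exact fun h0 => this (by
          have h1 : Sph56.det3 (D.blue j) (v' ⟨0, by omega⟩) (D.blue j') = 0 := h0
          rw [h1]; simp))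
  have he1 : ∀ (j : Fin n) (i : Fin (2 * k + 1)), Sph56.det3 (D.blue j) e (v' i) ≠ 0 :=
    fun j i => he (Sum.inl (j, i))
  have he2 : ∀ j j' : Fin n, j ≠ j' → Sph56.det3 (D.blue j) e (D.blue j') ≠ 0 :=
    fun j j' h => he (Sum.inr ⟨(j, j'), h⟩)
  set r := lab v' σ with hr
  have hlab : ∀ x (hx : x < 2 * k + 1), r x = v' (σ ⟨x, hx⟩) := by
    intro x hx
    rw [hr]; unfold lab
    rw [dif_pos hx]
  have hlab0 : ∀ x (hx : x < 2 * k + 1), lab D.red σ x = D.red (σ ⟨x, hx⟩) := by
    intro x hx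
    unfold lab
    rw [dif_pos hx]
  have hblue : ∀ j : Fin n, Sph56.BlueS k r e (D.blue j) := by
    intro j
    refine ⟨?_, ?_⟩
    · intro i hi i' hi' hne
      rw [hlab i hi, hlab i' hi']
      exact n2 _ _ j (fun h => hne (by simpa using σ.injective h))
    · intro i hi
      rw [hlab i hi]
      exact he1 j _
  have hpairS : ∀ j j' : Fin n, j ≠ j' → Sph56.PairS k r e (D.blue j) (D.blue j') := by
    intro j j' hne
    refine ⟨?_, he2 j j' hne⟩
    intro i hi
    rw [hlab i hi]
    have := n3 (σ ⟨i, hi⟩) j j' hne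
    rw [hcyc] at this
    exact this
  -- the good pairs of the perturbed reds are good pairs of the reds
  have hgood : ∀ j j' : Fin n, j ≠ j' →
      good4Count k r (D.blue j) (D.blue j') ≤ good4Count k (lab D.red σ) (D.blue j) (D.blue j') := by
    intro j j' hne
    unfold good4Count
    apply card_le_card
    intro q hq
    simp only [mem_filter, mem_product, mem_range] at hq ⊢
    obtain ⟨⟨hq1, hq2⟩, hlt, hg1, hg2⟩ := hq
    refine ⟨⟨hq1, hq2⟩, hlt, ?_, ?_⟩
    · rw [hlab _ hq1, hlab _ hq2] at hg1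
      rw [hlab0 _ hq1, hlab0 _ hq2]
      refine sign_transfer _ _ _ _ hg1 ?_ ?_
      · have := q3 (σ ⟨q.1, hq1⟩) j j' hne
        rw [hcyc (v' _), hcyc (D.red _)] at this
        exact this
      · have := q3 (σ ⟨q.2, hq2⟩) j j' hne
        rw [hcyc (v' _), hcyc (D.red _)] at this
        exact this
    · rw [hlab _ hq1, hlab _ hq2] at hg2
      rw [hlab0 _ hq1, hlab0 _ hq2]
      have hσ : σ ⟨q.1, hq1⟩ ≠ σ ⟨q.2, hq2⟩ := fun h => by
        have := σ.injective h
        simp only [Fin.mk.injEq] at this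
        omega
      exact sign_transfer _ _ _ _ hg2 (q2 _ _ j hσ) (q2 _ _ j' hσ)
  have hpair : ∀ j j' : Fin n, j < j' →
      ((II k).filter fun f => Sph56.PhiS k r nn e f (D.blue j) =
        Sph56.PhiS k r nn e f (D.blue j')).card ≤ D.pc j j' := by
    intro j j' hlt
    exact ((hP r nn e _ _ hLab (hblue j) (hblue j') (hpairS j j' (ne_of_lt hlt))).trans
      (hgood j j' (ne_of_lt hlt))).trans (geo_good4Count_le_pc k D σ j j')
  have := Rect.feat_count (II k) (fun f j => Sph56.PhiS k r nn e f (D.blue j)) D.pc hpair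
  rw [card_II] at this
  exact this.trans (sum_pc_le D)

/-- all `m` -/
theorem geo_all_of (hP : ∀ k, PairIneqS k) (hLA : ∀ k, LabAll k) (m n : ℕ) (D : GeoDrawing m n) :
    (m / 2) * ((m - 1) / 2) * ((n / 2) * ((n - 1) / 2)) ≤ D.crossings :=
  all_of_odd (fun k n D => geo_odd_of k (hP k) (hLA k) n D) m n D

end Vale.Agent.P040.Sph80
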