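import Vale.Agent.P040.Sph80.GCount
import Vale.Agent.P040.Rect.Reduce
import Vale.Agent.P040.Sph80.RTight

/-!
# Central projection of a rectilinear drawing to the sphere

A rectilinear drawing in the plane `z = 1` is projected from the origin to the unit sphere: segments
become geodesic arcs, and arcs that meet come from segments that meet.
-/

namespace Vale.Agent.P040.Sph80

open Finset Vale.Agent.P040.Sph40 Vale.Agent.P040.Rect

/-- the normalising factor -/
noncomputable def cf (p : ℝ × ℝ) : ℝ := 1 / Real.sqrt (p.1 ^ 2 + p.2 ^ 2 + 1)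

lemma cf_pos (p : ℝ × ℝ) : 0 < cf p := by
  unfold cf
  have : 0 < p.1 ^ 2 + p.2 ^ 2 + 1 := by positivity
  positivity

lemma cf_sq (p : ℝ × ℝ) : cf p ^ 2 * (p.1 ^ 2 + p.2 ^ 2 + 1) = 1 := by
  unfold cf
  have h : 0 < p.1 ^ 2 + p.2 ^ 2 + 1 := by positivity
  rw [div_pow, Real.sq_sqrt h.le]
  field_simp

/-- central projection of the point `(p, 1)` to the unit sphere -/
noncomputable def toSph (p : ℝ × ℝ) : V3 := (cf p * p.1, cf p * p.2, cf p)

lemma nsq_toSph (p : ℝ × ℝ) : nsq (toSph p) = 1 := by
  unfold nsq toSph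
  simp only
  have := cf_sq p
  nlinarith [this]

lemma det3_toSph (a b c : ℝ × ℝ) :
    det3 (toSph a) (toSph b) (toSph c) = cf a * cf b * cf c * Rect.det a b c := by
  unfold det3 toSph Rect.det
  simp only
  ring

lemma det3_toSph_ne (a b c : ℝ × ℝ) (h : Rect.det a b c ≠ 0) :
    det3 (toSph a) (toSph b) (toSph c) ≠ 0 := by
  rw [det3_toSph]
  exact mul_ne_zero (mul_ne_zero (mul_ne_zero (cf_pos a).ne' (cf_pos b).ne') (cf_pos c).ne') h

/-- a point of the arc projects to a point of the segment -/
lemma mem_segment_of_mem_arc (p q : ℝ × ℝ) (z : V3) (h : z ∈ arc (toSph p) (toSph q)) :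
    (z.1 / z.2.2, z.2.1 / z.2.2) ∈ segment ℝ p q := by
  obtain ⟨hz, a, b, ha, hb, rfl⟩ := h
  have hp := cf_pos p
  have hq := cf_pos q
  set A := a * cf p with hA
  set B := b * cf q with hB
  have hA0 : 0 ≤ A := mul_nonneg ha hp.le
  have hB0 : 0 ≤ B := mul_nonneg hb hq.le
  have e1 : (a • toSph p + b • toSph q).1 = A * p.1 + B * q.1 := by
    simp only [toSph, Prod.fst_add, Prod.smul_fst, smul_eq_mul, hA, hB]; ring
  have e2 : (a • toSph p + b • toSph q).2.1 = A * p.2 + B * q.2 := by
    simp only [toSph, Prod.fst_add, Prod.snd_add, Prod.smul_fst, Prod.smul_snd, smul_eq_mul, hA, hB]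
    ring
  have e3 : (a • toSph p + b • toSph q).2.2 = A + B := by
    simp only [toSph, Prod.snd_add, Prod.smul_snd, smul_eq_mul, hA, hB]
  have hpos : 0 < A + B := by
    rcases (add_nonneg hA0 hB0).lt_or_eq with h | h
    · exact h
    · exfalso
      have hA1 : A = 0 := by linarith
      have hB1 : B = 0 := by linarith
      unfold nsq at hz
      rw [e1, e2, e3, hA1, hB1] at hz
      simp at hz
  rw [e1, e2, e3]
  refine ⟨A / (A + B), B / (A + B), by positivity, by positivity, ?_, ?_⟩
  · field_simp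
  · ext
    · simp only [Prod.fst_add, Prod.smul_fst, smul_eq_mul]
      field_simp
    · simp only [Prod.snd_add, Prod.smul_snd, smul_eq_mul]
      field_simp

variable {m n : ℕ}

/-- the projected drawing -/
noncomputable def ofRect (D : RectDrawing m n) : GeoDrawing m n where
  red := fun i => toSph (D.red i)
  blue := fun j => toSph (D.blue j)
  red_unit := fun i => nsq_toSph _
  blue_unit := fun j => nsq_toSph _
  gen_rrb := fun i i' j h => det3_toSph_ne _ _ _ (det_red_ne D i i' j h)
  gen_rbb := fun i j j' h => det3_toSph_ne _ _ _ (det_blue_ne D i j j' h)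

lemma cross_ofRect (D : RectDrawing m n) (e f : Fin m × Fin n) (h : (ofRect D).Cross e f) :
    D.Cross e f := by
  obtain ⟨z, h1, h2⟩ := h
  exact ⟨_, mem_segment_of_mem_arc _ _ z h1, mem_segment_of_mem_arc _ _ z h2⟩

lemma crossings_ofRect_le (D : RectDrawing m n) : (ofRect D).crossings ≤ D.crossings := by
  unfold GeoDrawing.crossings RectDrawing.crossings
  apply Set.ncard_le_ncard _ (Set.toFinite _)
  intro p hp
  exact ⟨hp.1, hp.2.1, cross_ofRect D _ _ hp.2.2⟩

/-- a spherical geodesic drawing with at most the Zarankiewicz number of crossings -/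
theorem exists_geo_le (m n : ℕ) :
    ∃ D : GeoDrawing m n, D.crossings ≤ (m / 2) * ((m - 1) / 2) * ((n / 2) * ((n - 1) / 2)) := by
  obtain ⟨D, hD⟩ := RT.exists_tight m n
  exact ⟨ofRect D, hD ▸ crossings_ofRect_le D⟩

end Vale.Agent.P040.Sph80
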