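import Vale.Agent.P040.Sph80.GMain
import Vale.Agent.P040.Sph80.Tight
import Vale.Agent.P040.Sph56.Pair
import Vale.Agent.P040.Sph99.Bridge81

/-!
# The Zarankiewicz bound for all spherical geodesic drawings of `K_{m,n}`, and its tightness
-/

namespace Vale.Agent.P040.Sph80

open Vale.Agent.P040.Sph40

lemma pairIneqS (k : ℕ) : PairIneqS k := by
  intro r nn e b b' hL hb hb' hp
  exact Sph56.pair_ineq hL hb hb' hp

lemma labAll (k : ℕ) : LabAll k := by
  intro v h
  exact Sph99.exists_lab v h

/-- **The Zarankiewicz bound for all spherical geodesic drawings of `K_{m,n}`.** -/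
theorem geo_all (m n : ℕ) (D : GeoDrawing m n) :
    (m / 2) * ((m - 1) / 2) * ((n / 2) * ((n - 1) / 2)) ≤ D.crossings :=
  geo_all_of pairIneqS labAll m n D

/-- the bound is attained -/
theorem geo_tight (m n : ℕ) :
    ∃ D : GeoDrawing m n, D.crossings = (m / 2) * ((m - 1) / 2) * ((n / 2) * ((n - 1) / 2)) := by
  obtain ⟨D, hD⟩ := exists_geo_le m n
  exact ⟨D, le_antisymm hD (geo_all m n D)⟩

end Vale.Agent.P040.Sph80
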