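import Vale.Agent.P040.Sph40.Defs

/-!
# Spherical geodesic drawings of `K_{m,n}` (general position for bichromatic triples only)
-/

namespace Vale.Agent.P040.Sph80

open Vale.Agent.P040.Sph40

/-- A spherical geodesic drawing of `K_{m,n}`: the vertices are points of the unit sphere of `ℝ³`,
every edge is the shortest great-circle arc joining a red to a blue vertex.  General position: no
great circle contains two red vertices and a blue one, or a red vertex and two blue ones (three points
of the sphere lie on a great circle iff their determinant vanishes). -/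
structure GeoDrawing (m n : ℕ) where
  /-- the red vertices -/
  red : Fin m → V3
  /-- the blue vertices -/
  blue : Fin n → V3
  red_unit : ∀ i, nsq (red i) = 1
  blue_unit : ∀ j, nsq (blue j) = 1
  gen_rrb : ∀ i i' j, i ≠ i' → det3 (red i) (red i') (blue j) ≠ 0
  gen_rbb : ∀ i j j', j ≠ j' → det3 (red i) (blue j) (blue j') ≠ 0

/-- the edges `e`, `f` (geodesic arcs) meet -/
def GeoDrawing.Cross {m n : ℕ} (D : GeoDrawing m n) (e f : Fin m × Fin n) : Prop :=
  (arc (D.red e.1) (D.blue e.2) ∩ arc (D.red f.1) (D.blue f.2)).Nonempty

/-- The number of crossings: the number of unordered pairs of edges without common end that meet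
(every such pair is listed once, with the smaller blue end first). -/
noncomputable def GeoDrawing.crossings {m n : ℕ} (D : GeoDrawing m n) : ℕ :=
  {p : (Fin m × Fin n) × (Fin m × Fin n) | p.1.2 < p.2.2 ∧ p.1.1 ≠ p.2.1 ∧ D.Cross p.1 p.2}.ncard

end Vale.Agent.P040.Sph80
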