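import Vale.Agent.P040.Sph56.Defs

/-!
# Four vectors of `ℝ³`: from the sign conditions `Good4` to a common point of two cones
-/

namespace Vale.Agent.P040.Sph80

open Vale.Agent.P040.Sph56

/-- linear combination of two vectors, written out in coordinates -/
def comb (p : ℝ) (a : V3) (q : ℝ) (c : V3) : V3 :=
  (p * a.1 + q * c.1, p * a.2.1 + q * c.2.1, p * a.2.2 + q * c.2.2)

/-- the linear dependency of four vectors of `ℝ³` -/
lemma dependency (b b' x x' : V3) :
    comb (det3 b' x x') b (det3 b b' x') x = comb (det3 b x x') b' (det3 b b' x) x' := by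
  unfold comb det3
  ext <;> simp only <;> ring

lemma det3_cyc (a b c : V3) : det3 a b c = det3 c a b := by
  unfold det3; ring

/-- `Good4` gives a common point of the open cones of `(b, x)`, `(b', x')` or of `(b, x')`, `(b', x)`. -/
theorem cone_meet_of_good4 (b b' x x' : V3) (h : Good4 b b' x x') :
    (∃ p q s t : ℝ, 0 < p ∧ 0 < q ∧ 0 < s ∧ 0 < t ∧ comb p b q x = comb s b' t x') ∨
    (∃ p q s t : ℝ, 0 < p ∧ 0 < q ∧ 0 < s ∧ 0 < t ∧ comb p b q x' = comb s b' t x) := by
  obtain ⟨h1, h2⟩ := h
  have hd := dependency b b' x x'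
  rw [det3_cyc x x' b, det3_cyc x x' b'] at h2
  set o1 := det3 b' x x' with ho1
  set o2 := det3 b x x' with ho2
  set o3 := det3 b b' x' with ho3
  set o4 := det3 b b' x with ho4
  have e1 : o1 * b.1 + o3 * x.1 = o2 * b'.1 + o4 * x'.1 := congrArg (fun v : V3 => v.1) hd
  have e2 : o1 * b.2.1 + o3 * x.2.1 = o2 * b'.2.1 + o4 * x'.2.1 :=
    congrArg (fun v : V3 => v.2.1) hd
  have e3 : o1 * b.2.2 + o3 * x.2.2 = o2 * b'.2.2 + o4 * x'.2.2 :=
    congrArg (fun v : V3 => v.2.2) hd
  -- signs
  rcases lt_trichotomy o1 0 with n1 | z1 | p1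
  · have n2 : o2 < 0 := by
      by_contra hh
      push Not at hh
      nlinarith [mul_nonneg hh (le_of_lt (neg_pos.mpr n1))]
    rcases lt_trichotomy o3 0 with n3 | z3 | p3
    · have n4 : o4 < 0 := by
        by_contra hh
        push Not at hh
        nlinarith [mul_nonneg hh (le_of_lt (neg_pos.mpr n3))]
      left
      refine ⟨-o1, -o3, -o2, -o4, by linarith, by linarith, by linarith, by linarith, ?_⟩
      unfold comb
      ext <;> simp only <;> linarith
    · rw [z3] at h1; simp at h1
    · have p4 : 0 < o4 := by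
        by_contra hh
        push Not at hh
        nlinarith [mul_nonneg (neg_nonneg.mpr hh) (le_of_lt p3)]
      right
      refine ⟨-o1, o4, -o2, o3, by linarith, by linarith, by linarith, by linarith, ?_⟩
      unfold comb
      ext <;> simp only <;> linarith
  · rw [z1] at h2; simp at h2
  · have p2 : 0 < o2 := by
      by_contra hh
      push Not at hh
      nlinarith [mul_nonneg (neg_nonneg.mpr hh) (le_of_lt p1)]
    rcases lt_trichotomy o3 0 with n3 | z3 | p3
    · have n4 : o4 < 0 := by
        by_contra hh
        push Not at hh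
        nlinarith [mul_nonneg hh (le_of_lt (neg_pos.mpr n3))]
      right
      refine ⟨o1, -o4, o2, -o3, by linarith, by linarith, by linarith, by linarith, ?_⟩
      unfold comb
      ext <;> simp only <;> linarith
    · rw [z3] at h1; simp at h1
    · have p4 : 0 < o4 := by
        by_contra hh
        push Not at hh
        nlinarith [mul_nonneg (neg_nonneg.mpr hh) (le_of_lt p3)]
      left
      refine ⟨o1, o3, o2, o4, p1, p3, p2, p4, ?_⟩
      unfold comb
      ext <;> simp only <;> linarith

end Vale.Agent.P040.Sph80
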