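import Vale.Agent.P040.Sph56.Defs

/-!
# A vector of `ℝ³` outside finitely many planes through the origin
-/

namespace Vale.Agent.P040.Sph80

open Finset Vale.Agent.P040.Sph56

/-- the point `(1, t, t²)` of the moment curve -/
def mom (t : ℝ) : V3 := (1, t, t ^ 2)

lemma dot_mom (w : V3) (t : ℝ) : dot w (mom t) = w.1 + w.2.1 * t + w.2.2 * t ^ 2 := by
  unfold dot mom
  simp only
  ring

/-- a plane through the origin contains finitely many points of the moment curve -/
lemma finite_roots (w : V3) (hw : w ≠ 0) : {t : ℝ | dot w (mom t) = 0}.Finite := by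
  classical
  set P : Polynomial ℝ :=
    Polynomial.C w.1 + Polynomial.C w.2.1 * Polynomial.X + Polynomial.C w.2.2 * Polynomial.X ^ 2
    with hP
  have hP0 : P ≠ 0 := by
    intro h0
    apply hw
    have c0 : P.coeff 0 = w.1 := by simp [hP]
    have c1 : P.coeff 1 = w.2.1 := by
      simp [hP, Polynomial.coeff_X, Polynomial.coeff_C]
    have c2 : P.coeff 2 = w.2.2 := by
      simp [hP, Polynomial.coeff_X, Polynomial.coeff_C]
    rw [h0] at c0 c1 c2
    simp only [Polynomial.coeff_zero] at c0 c1 c2
    ext
    · exact c0.symm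
    · exact c1.symm
    · exact c2.symm
  apply Set.Finite.subset (P.roots.toFinset.finite_toSet)
  intro t ht
  simp only [Set.mem_ofPred_eq] at ht
  rw [dot_mom] at ht
  simp only [Finset.mem_coe, Multiset.mem_toFinset]
  rw [Polynomial.mem_roots hP0]
  simp only [Polynomial.IsRoot.def, hP, Polynomial.eval_add, Polynomial.eval_C, Polynomial.eval_mul,
    Polynomial.eval_X, Polynomial.eval_pow]
  exact ht

/-- there is a vector outside finitely many planes through the origin -/
theorem exists_ref (W : Finset V3) (h : ∀ w ∈ W, w ≠ 0) : ∃ e : V3, ∀ w ∈ W, dot w e ≠ 0 := by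
  classical
  have hfin : (⋃ w ∈ W, {t : ℝ | dot w (mom t) = 0}).Finite :=
    Set.Finite.biUnion W.finite_toSet fun w hw => finite_roots w (h w hw)
  obtain ⟨t, ht⟩ := hfin.infinite_compl.nonempty
  refine ⟨mom t, fun w hw h0 => ht ?_⟩
  simp only [Set.mem_iUnion]
  exact ⟨w, hw, h0⟩

lemma det3_eq_dot (c e x : V3) : det3 c e x = dot (crs x c) e := by
  unfold det3 dot crs
  simp only
  ring

/-- if some determinant with `x`, `c` does not vanish then `crs x c ≠ 0` -/
lemma crs_ne_zero (x c y : V3) (h : det3 c y x ≠ 0) : crs x c ≠ 0 := by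
  intro h0
  apply h
  rw [det3_eq_dot, h0]
  unfold dot
  simp

end Vale.Agent.P040.Sph80
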