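import Vale.Agent.P040.Sph80.Ref

/-!
# A reference vector in general position with respect to a configuration of red and blue vectors
-/

namespace Vale.Agent.P040.Sph80

open Finset Vale.Agent.P040.Sph56

/-- A reference vector `e` with `det3 (B j) e (R i) ≠ 0` and `det3 (B j) e (B j') ≠ 0`. -/
theorem exists_ref_config (N n : ℕ) (R : ℕ → V3) (B : Fin n → V3)
    (h1 : ∀ j, ∀ i < N, crs (R i) (B j) ≠ 0) (h2 : ∀ j j', j ≠ j' → crs (B j') (B j) ≠ 0) :
    ∃ e : V3, (∀ j, ∀ i < N, det3 (B j) e (R i) ≠ 0) ∧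
      (∀ j j', j ≠ j' → det3 (B j) e (B j') ≠ 0) := by
  classical
  set W1 : Finset V3 := ((range N) ×ˢ (univ : Finset (Fin n))).image fun q => crs (R q.1) (B q.2)
    with hW1
  set W2 : Finset V3 := (((univ : Finset (Fin n)) ×ˢ (univ : Finset (Fin n))).filter
    fun q => q.1 ≠ q.2).image fun q => crs (B q.2) (B q.1) with hW2
  obtain ⟨e, he⟩ := exists_ref (W1 ∪ W2) (by
    intro w hw
    rcases mem_union.mp hw with hw | hw
    · obtain ⟨q, hq, rfl⟩ := mem_image.mp hw
      simp only [mem_product, mem_range, mem_univ, and_true] at hq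
      exact h1 q.2 q.1 hq
    · obtain ⟨q, hq, rfl⟩ := mem_image.mp hw
      simp only [mem_filter, mem_product, mem_univ, and_self, true_and] at hq
      exact h2 q.1 q.2 hq)
  refine ⟨e, ?_, ?_⟩
  · intro j i hi
    rw [det3_eq_dot]
    apply he
    apply mem_union_left
    apply mem_image.mpr
    exact ⟨(i, j), by simp [hi], rfl⟩
  · intro j j' hne
    rw [det3_eq_dot]
    apply he
    apply mem_union_right
    apply mem_image.mpr
    exact ⟨(j, j'), by simp [hne], rfl⟩

end Vale.Agent.P040.Sph80
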